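import Vale.Agent.P150.TestSeq
import Vale.Agent.P166N.Spectrum.Transfer
import Vale.Agent.P166F.Defs
import Vale.Agent.P146F.Semi.Law

/-!
P146: the Gaussian orthogonal ensemble of an array of independent standard Gaussians.
-/

namespace Vale.Agent.P146F

open MeasureTheory Matrix
open Vale.Agent.P150 (Dis gauss)
open Vale.Agent.P166N.Spectrum (spins)

variable {n : ℕ}

/-- The GOE matrix, off-diagonal variance `1 / n` and diagonal variance `2 / n`. -/
noncomputable def goe (A : Dis n) : Matrix (Fin n) (Fin n) ℝ :=
  Matrix.of fun i j => (A (i, j) + A (j, i)) / √(2 * n)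

lemma goe_transpose (A : Dis n) : (goe A)ᵀ = goe A := by
  ext i j
  simp [goe, add_comm]

/-- The normalised trace of a power. -/
noncomputable def tmom (k : ℕ) (A : Dis n) : ℝ := Matrix.trace (goe A ^ k) / n

/-- The quadratic form of a matrix at a configuration. -/
noncomputable def qform (M : Matrix (Fin n) (Fin n) ℝ) (σ : Fin n → Bool) : ℝ :=
  spins σ ⬝ᵥ (M *ᵥ spins σ)

/-- The partition function at a coupling matrix. -/
noncomputable def zsum (β : ℝ) (J : Matrix (Fin n) (Fin n) ℝ) : ℝ :=
  ∑ σ : Fin n → Bool, Real.exp (β / 2 * qform J σ)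

/-- The free energy of the GOE model. -/
noncomputable def freeE (β : ℝ) (A : Dis n) : ℝ := Real.log (zsum β (goe A))

/-- The Gibbs average of the quadratic form of `P` of the GOE matrix. -/
noncomputable def gquad (β : ℝ) (P : Polynomial ℝ) (A : Dis n) : ℝ :=
  (∑ σ : Fin n → Bool, Real.exp (β / 2 * qform (goe A) σ) *
    qform (Polynomial.aeval (goe A) P) σ) / zsum β (goe A)

end Vale.Agent.P146F
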