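import Vale.Agent.P146F.Goe.Model

/-!
P146: trace moments and the edge of the GOE matrix, from those of the zero-diagonal matrix.
-/

namespace Vale.Agent.P146F

open MeasureTheory ProbabilityTheory Filter Matrix
open Vale.Agent.P150 (Dis gauss wig opN symmArray extendUpper UpperPairs skCoupling catC traceMom)
open scoped Topology

variable {n : ℕ}

/-! ### Operator norms -/

/-- The operator norm of a square matrix. -/
noncomputable def mnorm (M : Matrix (Fin n) (Fin n) ℝ) : ℝ := ‖Matrix.toEuclideanCLM (𝕜 := ℝ) M‖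

lemma mnorm_nonneg (M : Matrix (Fin n) (Fin n) ℝ) : 0 ≤ mnorm M := norm_nonneg _

lemma mnorm_wig (g : Dis n) : mnorm (wig g) = opN g := rfl

lemma mnorm_add_le (M N : Matrix (Fin n) (Fin n) ℝ) : mnorm (M + N) ≤ mnorm M + mnorm N := by
  simp only [mnorm, map_add]
  exact norm_add_le _ _

lemma mnorm_mul_le (M N : Matrix (Fin n) (Fin n) ℝ) : mnorm (M * N) ≤ mnorm M * mnorm N := by
  simp only [mnorm, map_mul]
  exact norm_mul_le _ _

lemma mnorm_smul (c : ℝ) (M : Matrix (Fin n) (Fin n) ℝ) : mnorm (c • M) = |c| * mnorm M := by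
  simp only [mnorm, map_smul, norm_smul, Real.norm_eq_abs]

lemma mnorm_zero : mnorm (0 : Matrix (Fin n) (Fin n) ℝ) = 0 := by simp [mnorm]

lemma mnorm_pow_le (M : Matrix (Fin n) (Fin n) ℝ) (k : ℕ) : mnorm (M ^ k) ≤ mnorm M ^ k := by
  induction k with
  | zero =>
    simp only [pow_zero, mnorm, map_one]
    exact ContinuousLinearMap.norm_id_le
  | succ k ih =>
    rw [pow_succ, pow_succ]
    exact (mnorm_mul_le _ _).trans (mul_le_mul_of_nonneg_right ih (mnorm_nonneg _))

lemma mulVec_sq_le' (M : Matrix (Fin n) (Fin n) ℝ) (v : Fin n → ℝ) :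
    ∑ i, (M *ᵥ v) i ^ 2 ≤ mnorm M ^ 2 * ∑ i, v i ^ 2 := by
  have h := (Matrix.toEuclideanCLM (𝕜 := ℝ) M).le_opNorm (WithLp.toLp 2 v : EuclideanSpace ℝ (Fin n))
  have h2 := pow_le_pow_left₀ (norm_nonneg _) h 2
  rw [mul_pow, EuclideanSpace.real_norm_sq_eq, EuclideanSpace.real_norm_sq_eq,
    Matrix.toEuclideanCLM_toLp] at h2
  exact h2

lemma abs_dot_mulVec_le (M : Matrix (Fin n) (Fin n) ℝ) (v : Fin n → ℝ) :
    |v ⬝ᵥ (M *ᵥ v)| ≤ mnorm M * (v ⬝ᵥ v) := by
  have hv : v ⬝ᵥ v = ∑ i, v i ^ 2 := by simp [dotProduct, pow_two]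
  have h0 : 0 ≤ ∑ i, v i ^ 2 := Finset.sum_nonneg fun i _ => sq_nonneg _
  refine abs_le_of_sq_le_sq ?_ (mul_nonneg (mnorm_nonneg M) (hv ▸ h0))
  rw [hv]
  calc (v ⬝ᵥ (M *ᵥ v)) ^ 2 ≤ (∑ i, v i ^ 2) * ∑ i, (M *ᵥ v) i ^ 2 :=
        Finset.sum_mul_sq_le_sq_mul_sq _ _ _
    _ ≤ (∑ i, v i ^ 2) * (mnorm M ^ 2 * ∑ i, v i ^ 2) :=
        mul_le_mul_of_nonneg_left (mulVec_sq_le' M v) h0
    _ = _ := by ring

lemma abs_trace_div_le (M : Matrix (Fin n) (Fin n) ℝ) : |M.trace / n| ≤ mnorm M := by
  rcases Nat.eq_zero_or_pos n with rfl | hn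
  · simp [mnorm_nonneg]
  have hd : ∀ i, |M i i| ≤ mnorm M := fun i => by
    have h := abs_dot_mulVec_le M (fun j => if j = i then 1 else 0)
    simpa [dotProduct, Matrix.mulVec] using h
  rw [abs_div, Nat.abs_cast, div_le_iff₀ (Nat.cast_pos.2 hn), Matrix.trace]
  refine (Finset.abs_sum_le_sum_abs _ _).trans ((Finset.sum_le_sum fun i _ => hd i).trans_eq ?_)
  simp [mul_comm]

lemma mnorm_pow_sub_le (X W : Matrix (Fin n) (Fin n) ℝ) (k : ℕ) :
    mnorm (X ^ k - W ^ k) ≤ k * mnorm (X - W) * (1 + mnorm X + mnorm W) ^ k := by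
  have hX := mnorm_nonneg X
  have hW := mnorm_nonneg W
  induction k with
  | zero => simp [mnorm_zero]
  | succ k ih =>
    set R := 1 + mnorm X + mnorm W
    have hR : 1 ≤ R := by simp only [R]; linarith
    have e : X ^ (k + 1) - W ^ (k + 1) = X ^ k * (X - W) + (X ^ k - W ^ k) * W := by
      rw [pow_succ, pow_succ]; noncomm_ring
    rw [e]
    refine (mnorm_add_le _ _).trans (le_trans (add_le_add
      ((mnorm_mul_le _ _).trans (mul_le_mul_of_nonneg_right
        ((mnorm_pow_le _ _).trans (pow_le_pow_left₀ hX (show mnorm X ≤ R by simp only [R]; linarith) k))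
        (mnorm_nonneg _)))
      ((mnorm_mul_le _ _).trans (mul_le_mul ih (show mnorm W ≤ R by simp only [R]; linarith) hW
        (mul_nonneg (mul_nonneg (Nat.cast_nonneg k) (mnorm_nonneg _)) (pow_nonneg (by linarith) k))))) ?_)
    have h1 : R ^ k ≤ R ^ (k + 1) := pow_le_pow_right₀ hR (Nat.le_succ k)
    have h2 := mul_le_mul_of_nonneg_right h1 (mnorm_nonneg (X - W))
    have e1 : (k : ℝ) * mnorm (X - W) * R ^ k * R = (k : ℝ) * (mnorm (X - W) * R ^ (k + 1)) := by
      rw [pow_succ]; ring
    push_cast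
    linarith

lemma mnorm_diagonal_pow_le (d : Fin n → ℝ) (q : ℕ) :
    mnorm (diagonal d) ^ (4 * (q + 1)) ≤ ∑ i, d i ^ (4 * (q + 1)) := by
  have hev : Even (4 * (q + 1)) := ⟨2 * (q + 1), by ring⟩
  rcases Nat.eq_zero_or_pos n with rfl | hn
  · rw [show diagonal d = 0 from Subsingleton.elim _ _, mnorm_zero, zero_pow (by omega)]
    simp
  have : Nonempty (Fin n) := ⟨⟨0, hn⟩⟩
  obtain ⟨i, -, hi⟩ := Finset.exists_max_image Finset.univ (fun i => |d i|) Finset.univ_nonempty
  have hle : mnorm (diagonal d) ≤ |d i| := by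
    refine ContinuousLinearMap.opNorm_le_bound _ (abs_nonneg _) fun v => ?_
    rw [← pow_le_pow_iff_left₀ (norm_nonneg _) (by positivity) two_ne_zero, mul_pow,
      EuclideanSpace.real_norm_sq_eq, EuclideanSpace.real_norm_sq_eq]
    obtain ⟨w, rfl⟩ : ∃ w : Fin n → ℝ, WithLp.toLp 2 w = v := ⟨v.ofLp, rfl⟩
    rw [Matrix.toEuclideanCLM_toLp]
    simp only [Matrix.mulVec_diagonal, Finset.mul_sum, mul_pow]
    exact Finset.sum_le_sum fun j _ => mul_le_mul_of_nonneg_right
      (sq_le_sq.2 (by rw [abs_abs]; exact hi j (Finset.mem_univ j))) (sq_nonneg _)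
  refine (pow_le_pow_left₀ (mnorm_nonneg _) hle _).trans ?_
  rw [hev.pow_abs]
  exact Finset.single_le_sum (fun j _ => hev.pow_nonneg (d j)) (Finset.mem_univ i)

/-! ### The zero-diagonal part -/

/-- The diagonal of the GOE matrix. -/
noncomputable def gdiag (A : Dis n) : Matrix (Fin n) (Fin n) ℝ :=
  diagonal fun i => √2 / √n * A (i, i)

/-- The norm of the diagonal. -/
noncomputable def gdelta (A : Dis n) : ℝ := mnorm (gdiag A)

/-- The bound for the norms. -/
noncomputable def gbnd (A : Dis n) : ℝ := 1 + opN (symmArray A) + gdelta A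

lemma goe_eq (A : Dis n) : goe A = wig (symmArray A) + gdiag A := by
  ext i j
  rw [Matrix.add_apply, gdiag, Matrix.diagonal_apply, goe, Matrix.of_apply, wig, Matrix.of_apply]
  rcases eq_or_ne i j with rfl | h
  · rw [Vale.Agent.P150.skCoupling_self, if_pos rfl, zero_add, Real.sqrt_mul zero_le_two]
    have h2 : √2 * √2 = 2 := Real.mul_self_sqrt zero_le_two
    rcases Nat.eq_zero_or_pos n with rfl | hn
    · exact i.elim0
    have : √(n : ℝ) ≠ 0 := (Real.sqrt_pos.2 (Nat.cast_pos.2 hn)).ne'
    field_simp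
    linear_combination (-A (i, i)) * h2
  · rw [Vale.Agent.P150.skCoupling_symmArray 1 A h, if_neg h, add_zero, Real.sqrt_mul zero_le_two]
    field_simp

lemma mnorm_goe_le (A : Dis n) : mnorm (goe A) ≤ opN (symmArray A) + gdelta A := by
  rw [goe_eq]
  exact mnorm_add_le _ _

lemma one_le_gbnd (A : Dis n) : 1 ≤ gbnd A := by
  unfold gbnd gdelta
  linarith [Vale.Agent.P150.opN_nonneg (symmArray A), mnorm_nonneg (gdiag A)]

lemma abs_tmom_le (k : ℕ) (A : Dis n) : |tmom k A| ≤ gbnd A ^ k := by
  refine (abs_trace_div_le _).trans ((mnorm_pow_le _ _).trans (pow_le_pow_left₀ (mnorm_nonneg _) ?_ k))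
  exact (mnorm_goe_le A).trans (by unfold gbnd; linarith)

lemma abs_tmom_sub_le (k : ℕ) (A : Dis n) :
    |tmom k A - traceMom k (symmArray A)| ≤ k * gdelta A * (2 * gbnd A) ^ k := by
  rw [tmom, traceMom, ← sub_div, ← Matrix.trace_sub]
  refine (abs_trace_div_le _).trans ((mnorm_pow_sub_le _ _ k).trans ?_)
  have h0 := Vale.Agent.P150.opN_nonneg (symmArray A)
  have h1 : 0 ≤ gdelta A := mnorm_nonneg _
  rw [show goe A - wig (symmArray A) = gdiag A by rw [goe_eq]; abel]
  refine mul_le_mul_of_nonneg_left (pow_le_pow_left₀ ?_ ?_ k) (mul_nonneg (Nat.cast_nonneg k) h1)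
  · linarith [mnorm_nonneg (goe A), mnorm_nonneg (wig (symmArray A))]
  · rw [mnorm_wig]
    unfold gbnd
    linarith [mnorm_goe_le A]

/-! ### Transport of the law -/

/-- The array with only the entries above the diagonal. -/
def upArr (g : Dis n) : Dis n := extendUpper fun p : UpperPairs n => g p.1

lemma measurable_upArr : Measurable (upArr (n := n)) := by
  refine measurable_pi_lambda _ fun p => ?_
  simp only [upArr, extendUpper]
  split_ifs <;> fun_prop

lemma wig_upArr (g : Dis n) : wig (upArr g) = wig g := by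
  rw [wig, wig, upArr, Vale.Agent.P150.skCoupling_extendUpper]

lemma opN_upArr (g : Dis n) : opN (upArr g) = opN g := by
  rw [← mnorm_wig, wig_upArr, mnorm_wig]

lemma measurable_symmArray : Measurable (symmArray (n := n)) := by unfold symmArray; fun_prop

lemma map_up_symm :
    (gauss (Fin n × Fin n)).map (fun A => upArr (symmArray A)) =
      (gauss (Fin n × Fin n)).map upArr := by
  have hx : Measurable (extendUpper (n := n)) := by
    refine measurable_pi_lambda _ fun p => ?_
    simp only [extendUpper]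
    split_ifs <;> fun_prop
  have h1 := Vale.Agent.P150.gauss_map_comp (κ := Fin n × Fin n) (fun p : UpperPairs n => p.1)
    Subtype.val_injective
  let R : UpperPairs n → Fin n × Fin n → ℝ := fun p k =>
    (if k = p.1 then 1 / √2 else 0) + (if k = (p.1.2, p.1.1) then 1 / √2 else 0)
  have hR : ∀ p q, ∑ k, R p k * R q k = if p = q then 1 else 0 := by
    rintro ⟨⟨a, b⟩, hab⟩ ⟨⟨c, d⟩, hcd⟩
    have hab' : a ≠ b := ne_of_lt hab
    rcases eq_or_ne ((a, b) : Fin n × Fin n) (c, d) with h | h
    · obtain ⟨rfl, rfl⟩ := Prod.ext_iff.1 h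
      simp [R, mul_add, Finset.sum_add_distrib, hab', hab'.symm]
      rw [← sq, inv_pow, Real.sq_sqrt (by norm_num)]
      norm_num
    · have n1 : ((c, d) : Fin n × Fin n) ≠ (a, b) := h.symm
      have n2 : ((d, c) : Fin n × Fin n) ≠ (a, b) := fun e => by
        obtain ⟨rfl, rfl⟩ := Prod.ext_iff.1 e
        exact lt_asymm hab hcd
      have n3 : ((c, d) : Fin n × Fin n) ≠ (b, a) := fun e => by
        obtain ⟨rfl, rfl⟩ := Prod.ext_iff.1 e
        exact lt_asymm hab hcd
      have n4 : ((d, c) : Fin n × Fin n) ≠ (b, a) := fun e =>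
        h (Prod.ext (Prod.ext_iff.1 e).2.symm (Prod.ext_iff.1 e).1.symm)
      rw [if_neg fun e => h (congrArg Subtype.val e)]
      simp only [R, mul_add, Finset.sum_add_distrib, mul_ite, mul_zero, Finset.sum_ite_eq',
        Finset.mem_univ, if_true, n1, n2, n3, n4, if_false, zero_mul, add_zero]
  have h2 := Vale.Agent.P150.gauss_map_rowMap R hR
  have e2 : Vale.Agent.P150.rowMap R = fun A (p : UpperPairs n) => symmArray A p.1 := by
    funext A p
    simp [Vale.Agent.P150.rowMap, R, symmArray, add_mul, Finset.sum_add_distrib]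
    ring
  rw [e2] at h2
  have m1 : Measurable fun (A : Dis n) (p : UpperPairs n) => symmArray A p.1 := by
    unfold symmArray; fun_prop
  show (gauss _).map (extendUpper ∘ fun A (p : UpperPairs n) => symmArray A p.1) =
    (gauss _).map (extendUpper ∘ fun g (p : UpperPairs n) => g p.1)
  rw [← Measure.map_map hx m1, h2, ← Measure.map_map hx (by fun_prop), h1]

/-- A function of the couplings above the diagonal has the same law at the symmetrised array. -/
lemma integral_symm {F : Dis n → ℝ} (hF : Measurable F) (hup : ∀ g, F (upArr g) = F g) :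
    ∫ A, F (symmArray A) ∂gauss (Fin n × Fin n) = ∫ g, F g ∂gauss (Fin n × Fin n) := by
  have h := congrArg (fun μ => ∫ g, F g ∂μ) (map_up_symm (n := n))
  rw [integral_map (f := F) (φ := fun A => upArr (symmArray A))
      (measurable_upArr.comp measurable_symmArray).aemeasurable hF.aestronglyMeasurable,
    integral_map (f := F) measurable_upArr.aemeasurable hF.aestronglyMeasurable] at h
  simpa [hup] using h

lemma integrable_symm {F : Dis n → ℝ} (hF : Measurable F) (hup : ∀ g, F (upArr g) = F g)
    (hi : Integrable F (gauss (Fin n × Fin n))) :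
    Integrable (fun A => F (symmArray A)) (gauss (Fin n × Fin n)) := by
  have h1 : Integrable (fun g => F g) ((gauss (Fin n × Fin n)).map upArr) := by
    rw [integrable_map_measure hF.aestronglyMeasurable measurable_upArr.aemeasurable]
    simpa [Function.comp_def, hup] using hi
  rw [← map_up_symm, integrable_map_measure (f := fun A => upArr (symmArray A)) hF.aestronglyMeasurable
    (measurable_upArr.comp measurable_symmArray).aemeasurable] at h1
  simpa [Function.comp_def, hup] using h1

/-! ### Moments -/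

lemma continuous_wig_dis (n : ℕ) : Continuous (wig (n := n)) := by
  refine continuous_pi fun i => continuous_pi fun j => ?_
  simp only [wig, Matrix.of_apply, skCoupling]
  split_ifs <;> fun_prop

lemma continuous_mnorm : Continuous (mnorm (n := n)) :=
  continuous_norm.comp (LinearMap.continuous_of_finiteDimensional
    ((Matrix.toEuclideanCLM (n := Fin n) (𝕜 := ℝ)).toAlgEquiv.toLinearMap))

lemma continuous_goe : Continuous (goe (n := n)) := by unfold goe; fun_prop

lemma continuous_symmArray : Continuous (symmArray (n := n)) := by unfold symmArray; fun_prop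

lemma continuous_gdelta : Continuous (gdelta (n := n)) :=
  continuous_mnorm.comp (Continuous.matrix_diagonal (by fun_prop))

lemma continuous_gbnd : Continuous (gbnd (n := n)) :=
  (continuous_const.add (Vale.Agent.P150.continuous_opN.comp continuous_symmArray)).add continuous_gdelta

lemma continuous_tmom (k : ℕ) : Continuous (tmom (n := n) k) :=
  (Continuous.matrix_trace (continuous_goe.pow k)).div_const _

lemma integrable_coord_pow (c : ℝ) (q : ℕ) (i : Fin n) :
    Integrable (fun A : Dis n => (c * A (i, i)) ^ q) (gauss (Fin n × Fin n)) := by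
  simp only [mul_pow]
  refine Integrable.const_mul ?_ _
  refine (measurePreserving_eval (fun _ : Fin n × Fin n => gaussianReal 0 1)
    (i, i)).integrable_comp_of_integrable (g := fun x : ℝ => x ^ q) ?_
  refine (Vale.Agent.P150.integrable_one_add_abs_pow q).mono' (by fun_prop) (Eventually.of_forall fun x => ?_)
  rw [norm_pow, Real.norm_eq_abs]
  exact pow_le_pow_left₀ (abs_nonneg x) (by linarith [abs_nonneg x]) q

lemma integrable_gdelta_pow4 (q : ℕ) :
    Integrable (fun A : Dis n => gdelta A ^ (4 * (q + 1))) (gauss (Fin n × Fin n)) := by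
  refine (integrable_finsetSum Finset.univ fun i _ =>
    integrable_coord_pow (√2 / √(n : ℝ)) (4 * (q + 1)) i).mono'
    (continuous_gdelta.pow _).aestronglyMeasurable (Eventually.of_forall fun A => ?_)
  rw [norm_pow, Real.norm_eq_abs, abs_of_nonneg (show 0 ≤ gdelta A from mnorm_nonneg _)]
  exact mnorm_diagonal_pow_le _ q

lemma tendsto_gdelta_pow4 (q : ℕ) :
    Tendsto (fun n => ∫ A : Dis n, gdelta A ^ (4 * (q + 1)) ∂gauss (Fin n × Fin n)) atTop (𝓝 0) := by
  set M := ∫ x, x ^ (4 * (q + 1)) ∂gaussianReal 0 1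
  have hM : 0 ≤ M := integral_nonneg fun x => Even.pow_nonneg ⟨2 * (q + 1), by ring⟩ x
  refine squeeze_zero' (Eventually.of_forall fun n => integral_nonneg fun A => pow_nonneg (mnorm_nonneg _) _)
    ?_ (tendsto_const_div_atTop_nhds_zero_nat (2 ^ (2 * (q + 1)) * M))
  filter_upwards [eventually_gt_atTop 0] with n hn
  have hn' : (1 : ℝ) ≤ n := Nat.one_le_cast.2 hn
  refine (integral_mono (integrable_gdelta_pow4 q) (integrable_finsetSum Finset.univ fun i _ =>
    integrable_coord_pow (√2 / √(n : ℝ)) (4 * (q + 1)) i) fun A => mnorm_diagonal_pow_le _ q).trans ?_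
  rw [integral_finsetSum _ fun i _ => integrable_coord_pow _ _ i]
  have e : ∀ i : Fin n, ∫ A : Dis n, (√2 / √(n : ℝ) * A (i, i)) ^ (4 * (q + 1)) ∂gauss (Fin n × Fin n) =
      (2 / (n : ℝ)) ^ (2 * (q + 1)) * M := fun i => by
    simp only [mul_pow, integral_const_mul]
    rw [Vale.Agent.P150.integral_gauss_coord (i, i) (φ := fun x => x ^ (4 * (q + 1))) (by fun_prop)]
    congr 1
    rw [show 4 * (q + 1) = 2 * (2 * (q + 1)) by ring, pow_mul, div_pow, Real.sq_sqrt zero_le_two,
      Real.sq_sqrt (Nat.cast_nonneg n)]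
  simp only [e, Finset.sum_const, Finset.card_univ, Fintype.card_fin, nsmul_eq_mul, div_pow]
  have hp : (n : ℝ) * n ≤ (n : ℝ) ^ (2 * (q + 1)) := by
    rw [← pow_two]; exact pow_le_pow_right₀ hn' (by omega)
  calc (n : ℝ) * (2 ^ (2 * (q + 1)) / (n : ℝ) ^ (2 * (q + 1)) * M)
      = (n : ℝ) / (n : ℝ) ^ (2 * (q + 1)) * (2 ^ (2 * (q + 1)) * M) := by ring
    _ ≤ 1 / (n : ℝ) * (2 ^ (2 * (q + 1)) * M) := by
        refine mul_le_mul_of_nonneg_right ?_ (by positivity)
        rw [div_le_div_iff₀ (by positivity) (by positivity), one_mul]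
        exact hp
    _ = _ := by ring

lemma gbnd_pow_le (p : ℕ) (A : Dis n) :
    gbnd A ^ p ≤ 2 ^ p * ((1 + opN (symmArray A)) ^ p + (1 + gdelta A ^ (4 * (p + 1)))) := by
  have ha : 0 ≤ 1 + opN (symmArray A) := Vale.Agent.P150.one_add_opN_nonneg _
  have hb : 0 ≤ gdelta A := mnorm_nonneg _
  have hb' : gdelta A ^ p ≤ 1 + gdelta A ^ (4 * (p + 1)) := by
    rcases le_total (gdelta A) 1 with h | h
    · linarith [pow_le_one₀ hb h (n := p), pow_nonneg hb (4 * (p + 1))]
    · linarith [pow_le_pow_right₀ h (show p ≤ 4 * (p + 1) by omega)]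
  refine ((add_pow_le ha hb p).trans (mul_le_mul_of_nonneg_right
    (pow_le_pow_right₀ one_le_two (Nat.sub_le p 1)) (by positivity))).trans ?_
  gcongr

lemma integrable_gbnd_pow (p : ℕ) : Integrable (fun A : Dis n => gbnd A ^ p) (gauss (Fin n × Fin n)) := by
  have h1 : Integrable (fun A : Dis n => (1 + opN (symmArray A)) ^ p) (gauss (Fin n × Fin n)) :=
    integrable_symm (F := fun g => (1 + opN g) ^ p)
      ((continuous_const.add Vale.Agent.P150.continuous_opN).pow p).measurable
      (fun g => by rw [opN_upArr]) (Vale.Agent.P150.integrable_opN_pow p)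
  refine ((h1.add ((integrable_const (1 : ℝ)).add (integrable_gdelta_pow4 p))).const_mul (2 ^ p)).mono'
    (continuous_gbnd.pow p).aestronglyMeasurable (Eventually.of_forall fun A => ?_)
  rw [Real.norm_eq_abs, abs_of_nonneg (pow_nonneg (zero_le_one.trans (one_le_gbnd A)) _)]
  exact gbnd_pow_le p A

lemma gbnd_bound (p : ℕ) :
    ∃ C, ∀ᶠ n in atTop, ∫ A : Dis n, gbnd A ^ p ∂gauss (Fin n × Fin n) ≤ C := by
  obtain ⟨C, -, hC⟩ := Vale.Agent.P150.moment_bound p
  refine ⟨2 ^ p * (C + (1 + 1)), ?_⟩
  filter_upwards [hC, (tendsto_gdelta_pow4 p).eventually_le_const one_pos] with n h1 h2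
  have e : Integrable (fun A : Dis n => (1 + opN (symmArray A)) ^ p) (gauss (Fin n × Fin n)) :=
    integrable_symm (F := fun g => (1 + opN g) ^ p)
      ((continuous_const.add Vale.Agent.P150.continuous_opN).pow p).measurable
      (fun g => by rw [opN_upArr]) (Vale.Agent.P150.integrable_opN_pow p)
  refine (integral_mono (integrable_gbnd_pow p)
    ((e.add ((integrable_const (1 : ℝ)).add (integrable_gdelta_pow4 p))).const_mul (2 ^ p))
    fun A => gbnd_pow_le p A).trans ?_
  rw [integral_const_mul, integral_add' e ((integrable_const _).add (integrable_gdelta_pow4 p)),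
    integral_add' (integrable_const _) (integrable_gdelta_pow4 p),
    integral_symm (F := fun g => (1 + opN g) ^ p)
      ((continuous_const.add Vale.Agent.P150.continuous_opN).pow p).measurable fun g => by rw [opN_upArr]]
  simp only [integral_const, probReal_univ, one_smul]
  gcongr

/-- A product with one factor small in square mean and the other bounded in square mean is small. -/
lemma tendsto_amgm {F X Y : ∀ n, Dis n → ℝ} {C : ℝ}
    (hF : ∀ n A, |F n A| ≤ X n A * Y n A)
    (hX : ∀ n, Integrable (fun A => X n A ^ 2) (gauss (Fin n × Fin n)))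
    (hY : ∀ n, Integrable (fun A => Y n A ^ 2) (gauss (Fin n × Fin n)))
    (hX0 : Tendsto (fun n => ∫ A, X n A ^ 2 ∂gauss (Fin n × Fin n)) atTop (𝓝 0))
    (hYC : ∀ᶠ n in atTop, ∫ A, Y n A ^ 2 ∂gauss (Fin n × Fin n) ≤ C) :
    Tendsto (fun n => ∫ A, F n A ∂gauss (Fin n × Fin n)) atTop (𝓝 0) := by
  refine Metric.tendsto_nhds.2 fun e he => ?_
  have hC1 : 0 < |C| + 1 := by positivity
  set t := e / (2 * (|C| + 1))
  have ht : 0 < t := by positivity
  filter_upwards [hYC, hX0.eventually_lt_const (show (0 : ℝ) < 4 * t * (e / 2) by positivity)] with n h1 h2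
  rw [Real.dist_eq, sub_zero]
  have hb : ∀ A, ‖F n A‖ ≤ t * Y n A ^ 2 + X n A ^ 2 / (4 * t) := fun A => by
    rw [Real.norm_eq_abs]
    refine (hF n A).trans ?_
    have h : 0 ≤ (2 * t * Y n A - X n A) ^ 2 / (4 * t) := by positivity
    have e' : (2 * t * Y n A - X n A) ^ 2 / (4 * t) =
        t * Y n A ^ 2 + X n A ^ 2 / (4 * t) - X n A * Y n A := by field_simp; ring
    linarith
  rw [← Real.norm_eq_abs]
  refine (norm_integral_le_of_norm_le (((hY n).const_mul t).add ((hX n).div_const _))
    (Eventually.of_forall hb)).trans_lt ?_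
  rw [integral_add' ((hY n).const_mul t) ((hX n).div_const _), integral_const_mul, integral_div]
  have a1 : t * ∫ A, Y n A ^ 2 ∂gauss (Fin n × Fin n) ≤ t * |C| :=
    mul_le_mul_of_nonneg_left (h1.trans (le_abs_self C)) ht.le
  have a2 : (∫ A, X n A ^ 2 ∂gauss (Fin n × Fin n)) / (4 * t) < e / 2 := by
    rw [div_lt_iff₀ (by positivity)]; linarith
  have a3 : t * (|C| + 1) = e / 2 := by simp only [t]; field_simp
  linarith

lemma tendsto_gdelta_sq :
    (∀ n, Integrable (fun A : Dis n => gdelta A ^ 2) (gauss (Fin n × Fin n))) ∧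
    Tendsto (fun n => ∫ A : Dis n, gdelta A ^ 2 ∂gauss (Fin n × Fin n)) atTop (𝓝 0) := by
  have hi : ∀ n, Integrable (fun A : Dis n => gdelta A ^ 2) (gauss (Fin n × Fin n)) := fun n => by
    refine ((integrable_const (1 : ℝ)).add (integrable_gdelta_pow4 0)).mono'
      (continuous_gdelta.pow 2).aestronglyMeasurable (Eventually.of_forall fun A => ?_)
    rw [Real.norm_eq_abs, abs_pow, sq_abs]
    show _ ≤ 1 + gdelta A ^ (4 * (0 + 1))
    norm_num
    nlinarith [sq_nonneg (gdelta A ^ 2 - 1 / 2)]
  refine ⟨hi, tendsto_amgm (X := fun n A => gdelta A ^ 2) (Y := fun _ _ => 1) (C := 1)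
    (fun n A => by rw [abs_pow, sq_abs, mul_one]) (fun n => ?_) (fun n => integrable_const _) ?_
    (Eventually.of_forall fun n => by simp)⟩
  · simpa [← pow_mul] using integrable_gdelta_pow4 (n := n) 0
  · simpa [← pow_mul] using tendsto_gdelta_pow4 0

/-- Products of trace moments of the GOE matrix converge to the semicircle moments. -/
theorem tendsto_tmom_mul (a b : ℕ) :
    Tendsto (fun n => ∫ A : Dis n, tmom a A * tmom b A ∂gauss (Fin n × Fin n)) atTop
      (𝓝 (catC a * catC b)) := by
  have h0 : Tendsto (fun n : ℕ => ∫ g : Dis n, traceMom a g ∂gauss (Fin n × Fin n)) atTop (𝓝 (catC a)) := by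
    have h := Vale.Agent.P150.traceMom_limit a _ (Vale.Agent.P150.isTest_traceMom 0)
    have h' : Tendsto (fun n : ℕ => ∫ g : Dis n, traceMom a g ∂gauss (Fin n × Fin n) - catC a) atTop (𝓝 0) := by
      refine h.congr' ?_
      filter_upwards [eventually_gt_atTop 0] with n hn
      simp [traceMom, hn.ne']
    simpa using h'.add_const (catC a)
  have hW : Tendsto (fun n : ℕ => ∫ g : Dis n, traceMom a g * traceMom b g ∂gauss (Fin n × Fin n)) atTop
      (𝓝 (catC a * catC b)) := by
    have h1 := (Vale.Agent.P150.traceMom_limit b _ (Vale.Agent.P150.isTest_traceMom a)).add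
      (h0.const_mul (catC b))
    rw [zero_add] at h1
    rw [mul_comm (catC a)]
    exact h1.congr fun n => by ring
  have hcW : ∀ (k n : ℕ), Continuous fun g : Dis n => traceMom k g := fun k n =>
    (Continuous.matrix_trace ((continuous_wig_dis n).pow k)).div_const _
  have hup : ∀ (n : ℕ) (g : Dis n), traceMom a (upArr g) * traceMom b (upArr g) = traceMom a g * traceMom b g :=
    fun n g => by simp only [traceMom, wig_upArr]
  have hiW : ∀ n, Integrable (fun g : Dis n => traceMom a g * traceMom b g) (gauss (Fin n × Fin n)) := fun n =>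
    ((Vale.Agent.P150.isTest_traceMom a).mul (Vale.Agent.P150.isTest_traceMom b)).integrable n
  have hWs : ∀ n, ∫ A : Dis n, traceMom a (symmArray A) * traceMom b (symmArray A) ∂gauss (Fin n × Fin n) =
      ∫ g : Dis n, traceMom a g * traceMom b g ∂gauss (Fin n × Fin n) := fun n =>
    integral_symm ((hcW a n).mul (hcW b n)).measurable (hup n)
  have hi : ∀ n, Integrable (fun A : Dis n => tmom a A * tmom b A) (gauss (Fin n × Fin n)) := fun n => by
    refine (integrable_gbnd_pow (a + b)).mono' ((continuous_tmom a).mul (continuous_tmom b)).aestronglyMeasurable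
      (Eventually.of_forall fun A => ?_)
    rw [Real.norm_eq_abs, abs_mul, pow_add]
    exact mul_le_mul (abs_tmom_le a A) (abs_tmom_le b A) (abs_nonneg _)
      (pow_nonneg (zero_le_one.trans (one_le_gbnd A)) _)
  obtain ⟨hd2, hd2t⟩ := tendsto_gdelta_sq
  obtain ⟨C, hC⟩ := gbnd_bound (2 * (a + b))
  set K : ℝ := ((a : ℝ) + b) * 2 ^ (a + b)
  have hdiff : Tendsto (fun n => ∫ A : Dis n, (tmom a A * tmom b A -
      traceMom a (symmArray A) * traceMom b (symmArray A)) ∂gauss (Fin n × Fin n)) atTop (𝓝 0) := by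
    refine tendsto_amgm (X := fun n A => gdelta A) (Y := fun n A => K * gbnd A ^ (a + b))
      (C := K ^ 2 * C) (fun n A => ?_) hd2 (fun n => ?_) hd2t ?_
    · have hd0 : 0 ≤ gdelta A := mnorm_nonneg _
      have hg := one_le_gbnd A
      have hb' : |traceMom a (symmArray A)| ≤ (2 * gbnd A) ^ a :=
        (Vale.Agent.P150.abs_traceMom_le _ _).trans (pow_le_pow_left₀ (Vale.Agent.P150.opN_nonneg _)
          (by unfold gbnd at hg ⊢; linarith [Vale.Agent.P150.opN_nonneg (symmArray A)]) a)
      have hbb : |tmom b A| ≤ (2 * gbnd A) ^ b :=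
        (abs_tmom_le b A).trans (pow_le_pow_left₀ (by linarith) (by linarith) b)
      rw [show tmom a A * tmom b A - traceMom a (symmArray A) * traceMom b (symmArray A) =
        (tmom a A - traceMom a (symmArray A)) * tmom b A +
          traceMom a (symmArray A) * (tmom b A - traceMom b (symmArray A)) by ring]
      refine (abs_add_le _ _).trans ?_
      rw [abs_mul, abs_mul]
      refine (add_le_add (mul_le_mul (abs_tmom_sub_le a A) hbb (abs_nonneg _) (by positivity))
        (mul_le_mul hb' (abs_tmom_sub_le b A) (abs_nonneg _) (by positivity))).trans (le_of_eq ?_)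
      simp only [K, pow_add, mul_pow]
      ring
    · simp only [mul_pow, ← pow_mul]
      exact (integrable_gbnd_pow _).const_mul _
    · filter_upwards [hC] with n hn
      simp only [mul_pow, ← pow_mul, integral_const_mul]
      rw [mul_comm (a + b) 2]
      exact mul_le_mul_of_nonneg_left hn (sq_nonneg _)
  have hfin := hdiff.add hW
  rw [zero_add] at hfin
  refine hfin.congr fun n => ?_
  have hiS : Integrable (fun A : Dis n => traceMom a (symmArray A) * traceMom b (symmArray A))
      (gauss (Fin n × Fin n)) :=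
    integrable_symm (F := fun g => traceMom a g * traceMom b g) ((hcW a n).mul (hcW b n)).measurable (hup n) (hiW n)
  rw [integral_sub (hi n) hiS, hWs n]
  ring

/-- The GOE matrix seldom leaves the spectrum of the semicircle law. -/
theorem tendsto_edge {η : ℝ} (hη : 0 < η) :
    Tendsto (fun n => ∫ A : Dis n, (if 2 + η < mnorm (goe A) then (1 : ℝ) else 0)
      ∂gauss (Fin n × Fin n)) atTop (𝓝 0) := by
  set ε := min 1 (η / 8) with hε
  have hε0 : 0 < ε := lt_min one_pos (by linarith)
  have ht := Vale.Agent.P150.tail_moment hε0 (min_le_left _ _) 0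
  obtain ⟨hd2, hd2t⟩ := tendsto_gdelta_sq
  have hlim : Tendsto (fun n => (∫ g in {g : Dis n | 2 + 4 * ε < opN g}, (1 + opN g) ^ 0
      ∂gauss (Fin n × Fin n)) + (∫ A : Dis n, gdelta A ^ 2 ∂gauss (Fin n × Fin n)) / (η / 2) ^ 2) atTop (𝓝 0) := by
    simpa using ht.add (hd2t.div_const ((η / 2) ^ 2))
  refine squeeze_zero (fun n => integral_nonneg fun A => by positivity) (fun n => ?_) hlim
  set S := {g : Dis n | 2 + 4 * ε < opN g}
  have hS : MeasurableSet S := measurableSet_lt measurable_const Vale.Agent.P150.continuous_opN.measurable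
  have hm : Measurable (S.indicator fun _ => (1 : ℝ)) := measurable_const.indicator hS
  have hup : ∀ g, S.indicator (fun _ => (1 : ℝ)) (upArr g) = S.indicator (fun _ => (1 : ℝ)) g := fun g => by
    simp only [Set.indicator_apply, S, Set.mem_setOf_eq, opN_upArr]
  have hiS := integrable_symm hm hup ((integrable_const (1 : ℝ)).indicator hS)
  refine (integral_mono_of_nonneg (Eventually.of_forall fun A => by positivity)
    (hiS.add ((hd2 n).div_const ((η / 2) ^ 2))) (Eventually.of_forall fun A => ?_)).trans (le_of_eq ?_)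
  · show (if 2 + η < mnorm (goe A) then (1 : ℝ) else 0) ≤
      S.indicator (fun _ => (1 : ℝ)) (symmArray A) + gdelta A ^ 2 / (η / 2) ^ 2
    have h2 : 0 ≤ gdelta A ^ 2 / (η / 2) ^ 2 := by positivity
    have h3 : 0 ≤ S.indicator (fun _ => (1 : ℝ)) (symmArray A) :=
      Set.indicator_nonneg (fun _ _ => zero_le_one) _
    split_ifs with h
    · by_cases hs : symmArray A ∈ S
      · rw [Set.indicator_of_mem hs]; linarith
      · rw [Set.indicator_of_notMem hs, zero_add, one_le_div (by positivity)]
        refine pow_le_pow_left₀ (by linarith) ?_ 2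
        simp only [S, Set.mem_setOf_eq, not_lt] at hs
        linarith [mnorm_goe_le A, min_le_right (1 : ℝ) (η / 8)]
    · linarith
  · rw [integral_add' hiS ((hd2 n).div_const _), integral_div, integral_symm hm hup, integral_indicator hS]
    simp

/-- The semicircle moments are the centred Catalan numbers. -/
theorem catC_eq_integral (k : ℕ) : catC k = ∫ x, x ^ k ∂sc := by
  have hsum : ∀ (f : ℕ → ℝ), (∀ i, f (2 * i + 1) = 0) → ∀ j,
      ∑ a ∈ Finset.range (2 * j + 1), f a = ∑ i ∈ Finset.range (j + 1), f (2 * i) := by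
    intro f hf j
    induction j with
    | zero => simp
    | succ j ih =>
      rw [show 2 * (j + 1) + 1 = 2 * j + 1 + 1 + 1 by ring, Finset.sum_range_succ, Finset.sum_range_succ,
        ih, hf, add_zero, Finset.sum_range_succ _ (j + 1), show 2 * j + 1 + 1 = 2 * (j + 1) by ring]
  have hcat : ∀ k, catC k = if Even k then (catalan (k / 2) : ℝ) else 0 := by
    intro k
    induction k using Nat.strong_induction_on with
    | _ k ih =>
      match k with
      | 0 => simp [catC]
      | 1 => simp [catC]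
      | k + 2 =>
        rw [catC, Fin.sum_univ_eq_sum_range fun a => catC a * catC (k - a)]
        have he : ∀ a ∈ Finset.range (k + 1), catC a * catC (k - a) =
            (if Even a then (catalan (a / 2) : ℝ) else 0) *
              if Even (k - a) then (catalan ((k - a) / 2) : ℝ) else 0 := fun a ha => by
          rw [Finset.mem_range] at ha
          rw [ih a (by omega), ih (k - a) (by omega)]
        rw [Finset.sum_congr rfl he]
        rcases Nat.even_or_odd k with ⟨j, rfl⟩ | ⟨j, rfl⟩
        · rw [if_pos (show Even (j + j + 2) from ⟨j + 1, by ring⟩),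
            show (j + j + 2) / 2 = j + 1 by omega, catalan_succ, Nat.cast_sum,
            Fin.sum_univ_eq_sum_range fun i => ((catalan i * catalan (j - i) : ℕ) : ℝ), ← two_mul,
            hsum _ (fun i => by rw [if_neg (Nat.not_even_two_mul_add_one i), zero_mul]) j]
          refine Finset.sum_congr rfl fun i _ => ?_
          rw [if_pos (even_two_mul i), show 2 * j - 2 * i = 2 * (j - i) by omega, if_pos (even_two_mul _)]
          push_cast
          rw [show 2 * i / 2 = i by omega, show 2 * (j - i) / 2 = j - i by omega]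
        · rw [if_neg (show ¬ Even (2 * j + 1 + 2) by rw [Nat.not_even_iff_odd]; exact ⟨j + 1, by ring⟩)]
          refine Finset.sum_eq_zero fun a ha => ?_
          rw [Finset.mem_range] at ha
          rcases Nat.even_or_odd a with he | he
          · have : ¬ Even (2 * j + 1 - a) := by
              obtain ⟨c, rfl⟩ := he
              rw [Nat.not_even_iff_odd]
              exact ⟨j - c, by omega⟩
            rw [if_neg this, mul_zero]
          · rw [if_neg (Nat.not_even_iff_odd.2 he), zero_mul]
  have hint : ∀ j, ∫ x, x ^ (2 * j) ∂sc = (catalan j : ℝ) ∧ ∫ x, x ^ (2 * j + 1) ∂sc = 0 := by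
    intro j
    induction j with
    | zero => exact ⟨by simp, by simpa [cheb_one] using integral_cheb 1⟩
    | succ j ih =>
      have h1 := integral_pow_sc_step (2 * j)
      have h2 := integral_pow_sc_step (2 * j + 1)
      rw [ih.1] at h1
      rw [ih.2] at h2
      have e1 : 2 * (j + 1) = 2 * j + 2 := by ring
      refine ⟨?_, ?_⟩
      · rw [e1]
        have hc : (((j + 1 + 1) * catalan (j + 1) : ℕ) : ℝ) * ((j : ℝ) + 1) =
            2 * (2 * (j : ℝ) + 1) * (((j + 1) * catalan j : ℕ) : ℝ) := by
          rw [succ_mul_catalan_eq_centralBinom, succ_mul_catalan_eq_centralBinom, mul_comm]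
          have := congrArg (fun t : ℕ => (t : ℝ)) (Nat.succ_mul_centralBinom_succ j)
          push_cast at this
          exact this
        push_cast at h1 hc
        have hc2 : ((j : ℝ) + 1 + 1) * (catalan (j + 1) : ℝ) = 2 * (2 * (j : ℝ) + 1) * catalan j := by
          refine mul_right_cancel₀ (show ((j : ℝ) + 1) ≠ 0 by positivity) ?_
          linarith
        refine mul_left_cancel₀ (show (2 * (j : ℝ) + 4) ≠ 0 by positivity) ?_
        linarith
      · rw [show 2 * (j + 1) + 1 = 2 * j + 1 + 2 by ring]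
        simp only [mul_zero] at h2
        exact (mul_eq_zero.1 h2).resolve_left (by positivity)
  rw [hcat]
  rcases Nat.even_or_odd' k with ⟨j, rfl | rfl⟩
  · rw [if_pos (even_two_mul j), (hint j).1, show 2 * j / 2 = j by omega]
  · rw [if_neg (Nat.not_even_two_mul_add_one j), (hint j).2]

end Vale.Agent.P146F
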