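import Vale.Agent.P146F.Goe.Model
import Vale.Agent.P146F.Semi.Law

/-!
P146: spectra with semicircle moments inside the edge are admissible for images of the semicircle law.
-/

namespace Vale.Agent.P146F

open MeasureTheory Filter Set
open Vale.Agent.P166 (Admissible)
open Vale.Agent.P166N.Spectrum (avg exists_near)
open scoped Topology BoundedContinuousFunction

/-- The semicircle law charges every neighbourhood of every point of `[-2, 2]`. -/
lemma Icc_subset_support_sc : Icc (-2 : ℝ) 2 ⊆ sc.support := by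
  intro x hx
  have key : ∀ y ∈ Ioo (-2 : ℝ) 2, y ∈ sc.support := by
    intro y hy
    refine (Measure.mem_support_iff_forall y).2 fun U hU => ?_
    obtain ⟨V, hVU, hV, hyV⟩ := mem_nhds_iff.1 hU
    refine lt_of_lt_of_le ?_ (measure_mono hVU)
    have hm : Measurable fun θ : ℝ => 2 * Real.cos θ := by fun_prop
    rw [sc, Measure.map_apply hm hV.measurableSet]
    set W : Set ℝ := (fun θ : ℝ => 2 * Real.cos θ) ⁻¹' V ∩ Ioo 0 Real.pi with hW
    have hWo : IsOpen W := (hV.preimage (by fun_prop)).inter isOpen_Ioo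
    have hθ : Real.arccos (y / 2) ∈ W := by
      refine ⟨?_, Real.arccos_pos.2 (by linarith [hy.2]), Real.arccos_lt_pi.2 (by linarith [hy.1])⟩
      show 2 * Real.cos (Real.arccos (y / 2)) ∈ V
      rw [Real.cos_arccos (by linarith [hy.1]) (by linarith [hy.2]), mul_div_cancel₀ y (two_ne_zero' ℝ)]
      exact hyV
    refine lt_of_lt_of_le ?_ (measure_mono (inter_subset_left : W ⊆ _))
    have hd : Measurable fun θ : ℝ => ENNReal.ofReal (2 / Real.pi * Real.sin θ ^ 2) :=
      (show Measurable fun θ : ℝ => 2 / Real.pi * Real.sin θ ^ 2 by fun_prop).ennreal_ofReal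
    rw [pos_iff_ne_zero, ne_eq, withDensity_apply_eq_zero' hd.aemeasurable]
    have hsub : W ⊆ {θ | ENNReal.ofReal (2 / Real.pi * Real.sin θ ^ 2) ≠ 0} ∩ W := fun θ hθW => by
      refine ⟨?_, hθW⟩
      simp only [mem_setOf_eq, ne_eq, ENNReal.ofReal_eq_zero, not_le]
      have := Real.sin_pos_of_pos_of_lt_pi hθW.2.1 hθW.2.2
      positivity
    refine fun h0 => (hWo.measure_pos volume ⟨_, hθ⟩).ne' ?_
    have h1 := measure_mono_null hsub h0
    rwa [Measure.restrict_eq_self _ fun θ hθW => Ioo_subset_Ioc_self hθW.2] at h1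
  have hcl : x ∈ closure (Ioo (-2 : ℝ) 2) := by
    rw [closure_Ioo (by norm_num : (-2 : ℝ) ≠ 2)]; exact hx
  exact closure_minimal key Measure.isClosed_support hcl

/-- The image of the semicircle law by a polynomial. -/
lemma sc_image (P : Polynomial ℝ) :
    IsProbabilityMeasure (sc.map fun x => P.eval x) ∧
      IsCompact (sc.map fun x => P.eval x).support ∧
      ∀ x ∈ Icc (-2 : ℝ) 2, P.eval x ∈ (sc.map fun x => P.eval x).support := by
  have hm : Measurable fun x : ℝ => P.eval x := P.continuous.measurable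
  have hI : IsCompact ((fun x : ℝ => P.eval x) '' Icc (-2 : ℝ) 2) := isCompact_Icc.image P.continuous
  refine ⟨Measure.isProbabilityMeasure_map hm.aemeasurable,
    hI.of_isClosed_subset Measure.isClosed_support (Measure.support_subset_of_isClosed hI.isClosed ?_),
    fun x hx => (Measure.mem_support_iff_forall _).2 fun U hU => ?_⟩
  · exact (ae_map_iff hm.aemeasurable hI.measurableSet).2 (ae_sc.mono fun x hx => ⟨x, hx, rfl⟩)
  · exact ((Measure.mem_support_iff_forall x).1 (Icc_subset_support_sc hx) _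
      (P.continuous.continuousAt hU)).trans_le (Measure.le_map_apply hm.aemeasurable U)

variable {l : (N : ℕ) → Fin N → ℝ}

lemma abs_avg_le {N : ℕ} {v : Fin N → ℝ} {φ : ℝ → ℝ} {c : ℝ} (hc : 0 ≤ c) (h : ∀ i, |φ (v i)| ≤ c) :
    |avg v φ| ≤ c := by
  rcases Nat.eq_zero_or_pos N with rfl | hN
  · simpa [avg] using hc
  rw [avg, abs_mul, abs_inv, Nat.abs_cast, inv_mul_le_iff₀ (Nat.cast_pos.2 hN)]
  refine (Finset.abs_sum_le_sum_abs _ _).trans ((Finset.sum_le_sum fun i _ => h i).trans_eq ?_)
  simp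

/-- Moments and edges give weak convergence on every continuous function. -/
lemma tendsto_avg_continuous (hedge : ∀ ε > 0, ∀ᶠ N in atTop, ∀ i, |l N i| ≤ 2 + ε)
    (hmom : ∀ q : ℕ, Tendsto (fun N => avg (l N) fun y => y ^ q) atTop (𝓝 (∫ x, x ^ q ∂sc)))
    {φ : ℝ → ℝ} (hφ : Continuous φ) :
    Tendsto (fun N => avg (l N) φ) atTop (𝓝 (∫ x, φ x ∂sc)) := by
  refine Metric.tendsto_nhds.2 fun e he => ?_
  obtain ⟨Q, hQ⟩ := exists_polynomial_near_of_continuousOn (-3) 3 φ hφ.continuousOn (e / 4) (by linarith)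
  have hQl : Tendsto (fun N => avg (l N) fun y => Q.eval y) atTop (𝓝 (∫ x, Q.eval x ∂sc)) := by
    have e1 : ∀ N, avg (l N) (fun y => Q.eval y) =
        ∑ q ∈ Finset.range (Q.natDegree + 1), Q.coeff q * avg (l N) (fun y => y ^ q) := fun N => by
      simp only [avg, Polynomial.eval_eq_sum_range, Finset.mul_sum]
      rw [Finset.sum_comm]
      exact Finset.sum_congr rfl fun q _ => Finset.sum_congr rfl fun i _ => by ring
    have e2 : ∫ x, Q.eval x ∂sc = ∑ q ∈ Finset.range (Q.natDegree + 1), Q.coeff q * ∫ x, x ^ q ∂sc := by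
      simp only [Polynomial.eval_eq_sum_range, ← integral_const_mul]
      exact integral_finsetSum _ fun q _ => (integrable_sc (continuous_pow q)).const_mul _
    simp only [e1, e2]
    exact tendsto_finsetSum _ fun q _ => (hmom q).const_mul _
  filter_upwards [hedge 1 one_pos, Metric.tendsto_nhds.1 hQl (e / 4) (by linarith)] with N h1 h2
  rw [Real.dist_eq] at h2 ⊢
  have a1 : |avg (l N) φ - avg (l N) fun y => Q.eval y| ≤ e / 4 := by
    have e' : avg (l N) φ - avg (l N) (fun y => Q.eval y) = avg (l N) fun y => φ y - Q.eval y := by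
      simp only [avg, Finset.sum_sub_distrib, mul_sub]
    rw [e']
    refine abs_avg_le (by linarith) fun i => ?_
    rw [abs_sub_comm]
    exact (hQ _ (abs_le.1 ((h1 i).trans (by norm_num)))).le
  have a2 : |(∫ x, Q.eval x ∂sc) - ∫ x, φ x ∂sc| ≤ e / 4 := by
    rw [← integral_sub (integrable_sc Q.continuous) (integrable_sc hφ), ← Real.norm_eq_abs]
    refine (norm_integral_le_of_norm_le_const (C := e / 4) (ae_sc.mono fun x hx => ?_)).trans (by simp)
    exact (Real.norm_eq_abs _).trans_le (hQ x ⟨by linarith [hx.1], by linarith [hx.2]⟩).le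
  have := abs_sub_le (avg (l N) φ) (avg (l N) fun y => Q.eval y) (∫ x, φ x ∂sc)
  have := abs_sub_le (avg (l N) fun y => Q.eval y) (∫ x, Q.eval x ∂sc) (∫ x, φ x ∂sc)
  linarith

/-- Such spectra are admissible after a polynomial. -/
theorem admissible_poly (P : Polynomial ℝ) (hedge : ∀ ε > 0, ∀ᶠ N in atTop, ∀ i, |l N i| ≤ 2 + ε)
    (hmom : ∀ q : ℕ, Tendsto (fun N => avg (l N) fun y => y ^ q) atTop (𝓝 (∫ x, x ^ q ∂sc))) :
    Admissible (sc.map fun x => P.eval x) fun N i => P.eval (l N i) := by
  obtain ⟨hprob, hcpt, hmem⟩ := sc_image P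
  set μ := sc.map fun x => P.eval x
  have hweak : ∀ φ : ℝ →ᵇ ℝ, Tendsto (fun N => avg (fun i => P.eval (l N i)) φ) atTop (𝓝 (∫ x, φ x ∂μ)) := by
    intro φ
    have h := tendsto_avg_continuous hedge hmom (φ := fun x => φ (P.eval x)) (φ.continuous.comp P.continuous)
    rwa [integral_map P.continuous.measurable.aemeasurable φ.continuous.aestronglyMeasurable]
  have hne : μ.support.Nonempty := Measure.nonempty_support (NeZero.ne _)
  have hbound : ∀ η, 0 < η → ∀ᶠ N in atTop, ∀ i,
      sInf μ.support - η ≤ P.eval (l N i) ∧ P.eval (l N i) ≤ sSup μ.support + η := by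
    intro η hη
    have huc := (isCompact_Icc (a := (-3 : ℝ)) (b := 3)).uniformContinuousOn_of_continuous
      (f := fun x : ℝ => P.eval x) P.continuous.continuousOn
    obtain ⟨δ, hδ, hd⟩ := Metric.uniformContinuousOn_iff.1 huc η hη
    filter_upwards [hedge (min (δ / 2) 1) (lt_min (by linarith) one_pos)] with N hN i
    set c := max (-2) (min 2 (l N i))
    have hb := abs_le.1 (hN i)
    have m1 := min_le_left (δ / 2) 1
    have m2 := min_le_right (δ / 2) 1
    have hc : c ∈ Icc (-2 : ℝ) 2 := ⟨le_max_left _ _, max_le (by norm_num) (min_le_left _ _)⟩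
    have hdist : dist c (l N i) < δ := by
      rw [Real.dist_eq, abs_lt]
      simp only [c]
      constructor <;> rcases le_total (l N i) 2 with h | h <;> rcases le_total (-2) (l N i) with h' | h' <;>
        simp only [min_eq_left, min_eq_right, max_eq_left, max_eq_right, h, h',
          show (-2 : ℝ) ≤ 2 by norm_num] <;> linarith
    have h := hd c ⟨by linarith [hc.1], by linarith [hc.2]⟩ (l N i) ⟨by linarith, by linarith⟩ hdist
    rw [Real.dist_eq, abs_lt] at h
    have h1 := le_csSup hcpt.bddAbove (hmem c hc)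
    have h2 := csInf_le hcpt.bddBelow (hmem c hc)
    constructor <;> linarith
  refine ⟨hweak, Metric.tendsto_nhds.2 fun η hη => ?_, Metric.tendsto_nhds.2 fun η hη => ?_⟩
  · filter_upwards [hbound (η / 2) (half_pos hη),
      exists_near (l := fun N i => P.eval (l N i)) hweak (hcpt.sSup_mem hne) (half_pos hη)] with N hN hnr
    obtain ⟨i, hi⟩ := hnr
    have : Nonempty (Fin N) := ⟨i⟩
    have h1 : (⨆ i, P.eval (l N i)) ≤ sSup μ.support + η / 2 := ciSup_le fun j => (hN j).2
    have h2 : P.eval (l N i) ≤ ⨆ i, P.eval (l N i) :=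
      le_ciSup (f := fun i => P.eval (l N i)) (Set.finite_range _).bddAbove i
    rw [abs_lt] at hi
    rw [Real.dist_eq, abs_lt]
    constructor <;> linarith
  · filter_upwards [hbound (η / 2) (half_pos hη),
      exists_near (l := fun N i => P.eval (l N i)) hweak (hcpt.sInf_mem hne) (half_pos hη)] with N hN hnr
    obtain ⟨i, hi⟩ := hnr
    have : Nonempty (Fin N) := ⟨i⟩
    have h1 : sInf μ.support - η / 2 ≤ ⨅ i, P.eval (l N i) := le_ciInf fun j => (hN j).1
    have h2 : (⨅ i, P.eval (l N i)) ≤ P.eval (l N i) :=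
      ciInf_le (f := fun i => P.eval (l N i)) (Set.finite_range _).bddBelow i
    rw [abs_lt] at hi
    rw [Real.dist_eq, abs_lt]
    constructor <;> linarith

end Vale.Agent.P146F
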