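import Vale.Agent.P146F.Goe.Moments
import Vale.Agent.P146F.Goe.Weak
import Vale.Agent.P166F.Main

/-!
P146: the limit of the expected pressure at a polynomial of the GOE matrix.
-/

namespace Vale.Agent.P146F

open MeasureTheory ProbabilityTheory Filter Matrix
open Vale.Agent.P150 (Dis gauss catC)
open Vale.Agent.P166 (pressure Admissible)
open Vale.Agent.P166N.Spectrum (jPress spins OrthInvLaw avg)
open Vale.Agent.P166F (formulaValues)
open scoped Topology

variable {n : ℕ}

lemma mnorm_orth_le {U : Matrix (Fin n) (Fin n) ℝ} (hU : Uᵀ * U = 1) : mnorm U ≤ 1 := by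
  refine ContinuousLinearMap.opNorm_le_bound _ zero_le_one fun v => ?_
  rw [one_mul, ← pow_le_pow_iff_left₀ (norm_nonneg _) (norm_nonneg _) two_ne_zero,
    EuclideanSpace.real_norm_sq_eq, EuclideanSpace.real_norm_sq_eq]
  obtain ⟨w, rfl⟩ : ∃ w : Fin n → ℝ, WithLp.toLp 2 w = v := ⟨v.ofLp, rfl⟩
  rw [Matrix.toEuclideanCLM_toLp]
  refine le_of_eq ?_
  have h : (U *ᵥ w) ⬝ᵥ (U *ᵥ w) = w ⬝ᵥ w := by
    rw [dotProduct_mulVec, ← mulVec_transpose, mulVec_mulVec, hU, one_mulVec]
  simpa [dotProduct, pow_two] using h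

lemma mnorm_conj_le {U : Matrix (Fin n) (Fin n) ℝ} (hU : Uᵀ * U = 1) (M : Matrix (Fin n) (Fin n) ℝ) :
    mnorm (Uᵀ * M * U) ≤ mnorm M := by
  have hU' : Uᵀᵀ * Uᵀ = 1 := by rw [transpose_transpose]; exact mul_eq_one_comm.1 hU
  refine (mnorm_mul_le _ _).trans ((mul_le_of_le_one_right (mnorm_nonneg _) (mnorm_orth_le hU)).trans ?_)
  exact (mnorm_mul_le _ _).trans (mul_le_of_le_one_left (mnorm_nonneg _) (mnorm_orth_le hU'))

lemma conj_pow {U : Matrix (Fin n) (Fin n) ℝ} (hU : Uᵀ * U = 1) (X : Matrix (Fin n) (Fin n) ℝ) (k : ℕ) :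
    (Uᵀ * X * U) ^ k = Uᵀ * X ^ k * U := by
  induction k with
  | zero => simp [hU]
  | succ k ih =>
    have h : U * Uᵀ = 1 := mul_eq_one_comm.1 hU
    rw [pow_succ, ih, pow_succ]
    simp only [Matrix.mul_assoc]
    rw [← Matrix.mul_assoc U Uᵀ, h, Matrix.one_mul]

lemma aeval_conj {U : Matrix (Fin n) (Fin n) ℝ} (hU : Uᵀ * U = 1) (X : Matrix (Fin n) (Fin n) ℝ)
    (P : Polynomial ℝ) : Polynomial.aeval (Uᵀ * X * U) P = Uᵀ * Polynomial.aeval X P * U := by
  simp only [Polynomial.aeval_eq_sum_range, conj_pow hU, Finset.mul_sum, Finset.sum_mul,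
    Matrix.mul_smul, Matrix.smul_mul]

lemma mnorm_aeval_le (P : Polynomial ℝ) (A : Dis n) :
    mnorm (Polynomial.aeval (goe A) P) ≤
      (∑ i ∈ Finset.range (P.natDegree + 1), |P.coeff i|) * gbnd A ^ P.natDegree := by
  rw [Polynomial.aeval_eq_sum_range, Finset.sum_mul]
  refine (Finset.le_sum_of_subadditive mnorm mnorm_zero.le mnorm_add_le _ _).trans
    (Finset.sum_le_sum fun i hi => ?_)
  rw [mnorm_smul]
  refine mul_le_mul_of_nonneg_left ((mnorm_pow_le _ _).trans
    ((pow_le_pow_left₀ (mnorm_nonneg _) ?_ i).trans (pow_le_pow_right₀ (one_le_gbnd A) ?_))) (abs_nonneg _)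
  · exact (mnorm_goe_le A).trans (by unfold gbnd; linarith)
  · exact Nat.lt_succ_iff.1 (Finset.mem_range.1 hi)

/-! ### Invariance -/

/-- An array conjugated by a matrix. -/
def conjArr (U : Matrix (Fin n) (Fin n) ℝ) (A : Dis n) : Dis n :=
  fun p => ∑ q, U q.1 p.1 * U q.2 p.2 * A q

lemma map_conjArr {U : Matrix (Fin n) (Fin n) ℝ} (hU : Uᵀ * U = 1) :
    (gauss (Fin n × Fin n)).map (conjArr U) = gauss (Fin n × Fin n) := by
  have hc : ∀ a b, ∑ k, U k a * U k b = if a = b then (1 : ℝ) else 0 := fun a b => by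
    have := congrFun (congrFun hU a) b
    simpa [Matrix.mul_apply, Matrix.one_apply] using this
  refine Vale.Agent.P150.gauss_map_rowMap (fun p q : Fin n × Fin n => U q.1 p.1 * U q.2 p.2) fun p q => ?_
  have e : ∑ x : Fin n × Fin n, U x.1 p.1 * U x.2 p.2 * (U x.1 q.1 * U x.2 q.2) =
      (∑ a, U a p.1 * U a q.1) * ∑ b, U b p.2 * U b q.2 := by
    rw [Fintype.sum_prod_type, Finset.sum_mul_sum]
    exact Finset.sum_congr rfl fun a _ => Finset.sum_congr rfl fun b _ => by ring
  rw [e, hc, hc]
  by_cases h1 : p.1 = q.1 <;> by_cases h2 : p.2 = q.2 <;> simp [h1, h2, Prod.ext_iff]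

lemma continuous_conjArr (U : Matrix (Fin n) (Fin n) ℝ) : Continuous (conjArr U) := by
  unfold conjArr; fun_prop

lemma goe_conjArr (U : Matrix (Fin n) (Fin n) ℝ) (A : Dis n) :
    goe (conjArr U A) = Uᵀ * goe A * U := by
  ext i j
  simp only [goe, conjArr, Matrix.of_apply, Matrix.mul_apply, Matrix.transpose_apply, Fintype.sum_prod_type,
    Finset.sum_mul]
  rw [← sub_eq_zero, Finset.sum_comm (f := fun x y => U y i * ((A (y, x) + A (x, y)) / √(2 * (n : ℝ))) * U x j),
    Finset.sum_comm (f := fun x y => U x j * U y i * A (x, y))]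
  simp only [← Finset.sum_add_distrib, Finset.sum_div, ← Finset.sum_sub_distrib]
  exact Finset.sum_eq_zero fun a _ => Finset.sum_eq_zero fun b _ => by ring

/-- The distance of the pressure at a polynomial of the GOE matrix from `c`, averaged over the eigenvectors. -/
noncomputable def haarDev (β : ℝ) (P : Polynomial ℝ) (c : ℝ) (ν : Measure (Fin n → Fin n → ℝ)) (A : Dis n) : ℝ :=
  ∫ U, |jPress β ((of U)ᵀ * Polynomial.aeval (goe A) P * of U) - c| ∂ν

lemma continuous_aeval_goe (P : Polynomial ℝ) :
    Continuous fun A : Dis n => Polynomial.aeval (goe A) P := by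
  simp only [Polynomial.aeval_eq_sum_range]
  exact continuous_finsetSum _ fun i _ => (continuous_goe.pow i).const_smul (P.coeff i)

lemma abs_jPress_poly_le (β : ℝ) (P : Polynomial ℝ) (A : Dis n) {U : Matrix (Fin n) (Fin n) ℝ}
    (hU : Uᵀ * U = 1) :
    |jPress β (Uᵀ * Polynomial.aeval (goe A) P * U)| ≤
      |β| / 2 * ((∑ i ∈ Finset.range (P.natDegree + 1), |P.coeff i|) * gbnd A ^ P.natDegree) := by
  have h0 : 0 ≤ gbnd A := zero_le_one.trans (one_le_gbnd A)
  refine Vale.Agent.P166N.Spectrum.abs_jPress_le β _ (by positivity) fun σ => ?_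
  refine (abs_dot_mulVec_le _ _).trans ?_
  rw [Vale.Agent.P166N.Spectrum.spins_dot_self]
  exact mul_le_mul_of_nonneg_right ((mnorm_conj_le hU _).trans (mnorm_aeval_le P A)) (Nat.cast_nonneg n)

lemma integral_haarDev (β : ℝ) (P : Polynomial ℝ) (c : ℝ) {ν : Measure (Fin n → Fin n → ℝ)}
    (h : OrthInvLaw n ν) :
    Integrable (haarDev β P c ν) (gauss (Fin n × Fin n)) ∧
      (∀ A : Dis n, haarDev β P c ν A ≤
        |β| / 2 * ((∑ i ∈ Finset.range (P.natDegree + 1), |P.coeff i|) * gbnd A ^ P.natDegree) + |c|) ∧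
      ∫ A, haarDev β P c ν A ∂gauss (Fin n × Fin n) =
        ∫ A : Dis n, |jPress β (Polynomial.aeval (goe A) P) - c| ∂gauss (Fin n × Fin n) := by
  have := h.prob
  set C := fun A : Dis n =>
    |β| / 2 * ((∑ i ∈ Finset.range (P.natDegree + 1), |P.coeff i|) * gbnd A ^ P.natDegree) + |c|
  have hcj : Continuous fun A : Dis n => |jPress β (Polynomial.aeval (goe A) P) - c| :=
    (((Vale.Agent.P166N.Spectrum.continuous_jPress β).comp (continuous_aeval_goe P)).sub continuous_const).abs
  have hc : Continuous fun p : Dis n × (Fin n → Fin n → ℝ) =>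
      |jPress β ((of p.2)ᵀ * Polynomial.aeval (goe p.1) P * of p.2) - c| := by
    refine (((Vale.Agent.P166N.Spectrum.continuous_jPress β).comp ?_).sub continuous_const).abs
    have h1 : Continuous fun p : Dis n × (Fin n → Fin n → ℝ) => (of p.2 : Matrix (Fin n) (Fin n) ℝ) :=
      continuous_snd
    exact (h1.matrix_transpose.matrix_mul ((continuous_aeval_goe P).comp continuous_fst)).matrix_mul h1
  have hCi : Integrable C (gauss (Fin n × Fin n)) :=
    (((integrable_gbnd_pow _).const_mul _).const_mul _).add (integrable_const _)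
  have hpt : ∀ (A : Dis n) (U : Fin n → Fin n → ℝ), (of U)ᵀ * of U = 1 →
      ‖|jPress β ((of U)ᵀ * Polynomial.aeval (goe A) P * of U) - c|‖ ≤ C A := fun A U hU => by
    rw [Real.norm_eq_abs, abs_abs]
    exact (abs_sub _ _).trans (add_le_add (abs_jPress_poly_le β P A hU) le_rfl)
  have hb : ∀ A : Dis n, haarDev β P c ν A ≤ C A := fun A =>
    ((Real.le_norm_self _).trans (norm_integral_le_of_norm_le_const (h.orth.mono fun U hU => hpt A U hU))).trans
      (by simp)
  have hF : Integrable (fun p : Dis n × (Fin n → Fin n → ℝ) =>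
      |jPress β ((of p.2)ᵀ * Polynomial.aeval (goe p.1) P * of p.2) - c|) ((gauss (Fin n × Fin n)).prod ν) :=
    (hCi.comp_fst ν).mono' hc.aestronglyMeasurable
      ((Measure.quasiMeasurePreserving_snd.ae h.orth).mono fun p hp => hpt p.1 p.2 hp)
  refine ⟨hF.integral_prod_left, hb, ?_⟩
  show ∫ A, ∫ U, _ ∂ν ∂gauss (Fin n × Fin n) = _
  rw [integral_integral_swap hF]
  have e : ∀ᵐ U ∂ν, ∫ A : Dis n, |jPress β ((of U)ᵀ * Polynomial.aeval (goe A) P * of U) - c|
      ∂gauss (Fin n × Fin n) = ∫ A : Dis n, |jPress β (Polynomial.aeval (goe A) P) - c| ∂gauss (Fin n × Fin n) :=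
    h.orth.mono fun U hU => by
      simp only [← aeval_conj hU, ← goe_conjArr]
      conv_rhs => rw [← map_conjArr hU]
      rw [integral_map (continuous_conjArr _).measurable.aemeasurable hcj.aestronglyMeasurable]
  rw [integral_congr_ae e]
  simp

/-- The spectrum of the GOE matrix. -/
lemma exists_goe_spectrum (β : ℝ) (P : Polynomial ℝ) (c : ℝ) {ν : Measure (Fin n → Fin n → ℝ)}
    (h : OrthInvLaw n ν) (A : Dis n) :
    ∃ l : Fin n → ℝ, (∀ i, |l i| ≤ mnorm (goe A)) ∧ (∀ q, avg l (fun y => y ^ q) = tmom q A) ∧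
      ∫ U, |pressure n β (fun i => P.eval (l i)) U - c| ∂ν = haarDev β P c ν A := by
  have hH : (goe A).IsHermitian := by
    rw [IsHermitian, conjTranspose_eq_transpose_of_trivial, goe_transpose]
  set l := hH.eigenvalues
  set O : Matrix (Fin n) (Fin n) ℝ := (hH.eigenvectorUnitary : Matrix (Fin n) (Fin n) ℝ)
  have hO : Oᵀ * O = 1 := by
    have := (Unitary.mem_iff.1 hH.eigenvectorUnitary.2).1
    rwa [star_eq_conjTranspose, conjTranspose_eq_transpose_of_trivial] at this
  have hO' : Oᵀᵀ * Oᵀ = 1 := by rw [transpose_transpose]; exact mul_eq_one_comm.1 hO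
  have hAO : goe A = Oᵀᵀ * diagonal l * Oᵀ := by
    have h := hH.spectral_theorem
    rw [Unitary.conjStarAlgAut_apply, star_eq_conjTranspose, conjTranspose_eq_transpose_of_trivial] at h
    rw [transpose_transpose]
    exact h
  refine ⟨l, fun i => ?_, fun q => ?_, ?_⟩
  · have hd : diagonal l = Oᵀ * goe A * O := by
      rw [hAO, transpose_transpose, ← Matrix.mul_assoc, ← Matrix.mul_assoc, hO, Matrix.one_mul,
        Matrix.mul_assoc, hO, Matrix.mul_one]
    have h1 : |l i| ≤ mnorm (diagonal l) := by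
      have := abs_dot_mulVec_le (diagonal l) (fun j => if j = i then 1 else 0)
      simpa [dotProduct, Matrix.mulVec, Matrix.diagonal_apply] using this
    exact h1.trans (hd ▸ mnorm_conj_le hO _)
  · rw [tmom, hAO, conj_pow hO', Matrix.trace_mul_cycle, transpose_transpose, hO, Matrix.one_mul,
      Matrix.diagonal_pow, Matrix.trace_diagonal, avg, inv_mul_eq_div]
    rfl
  · have e : Polynomial.aeval (goe A) P = Oᵀᵀ * diagonal (fun i => P.eval (l i)) * Oᵀ := by
      rw [hAO, aeval_conj hO']
      congr 2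
      rw [Polynomial.aeval_eq_sum_range]
      ext a b
      simp only [Matrix.diagonal_pow, Matrix.sum_apply, Matrix.smul_apply, Matrix.diagonal_apply,
        Pi.pow_apply, smul_eq_mul, mul_ite, mul_zero]
      by_cases hab : a = b
      · simp [hab, Polynomial.eval_eq_sum_range]
      · simp [hab]
    have := h.prob
    have hinv := h.invariant Oᵀ hO'
    unfold haarDev
    rw [e]
    set F : (Fin n → Fin n → ℝ) → ℝ := fun U => |pressure n β (fun i => P.eval (l i)) U - c|
    have hFc : Continuous F := ((Vale.Agent.P166.continuous_pressure β _).sub continuous_const).abs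
    have e2 : ∀ U : Fin n → Fin n → ℝ,
        |jPress β ((of U)ᵀ * (Oᵀᵀ * diagonal (fun i => P.eval (l i)) * Oᵀ) * of U) - c| =
          F (of.symm (Oᵀ * of U)) := fun U => by
      simp only [F, Vale.Agent.P166N.Spectrum.pressure_eq_jPress]
      congr 3
      rw [show (of (of.symm (Oᵀ * of U))) = Oᵀ * of U from rfl, transpose_mul]
      simp only [Matrix.mul_assoc]
    simp only [e2]
    have hmeas : Measurable fun U : Fin n → Fin n → ℝ => of.symm (Oᵀ * of U) := by
      refine Continuous.measurable ?_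
      exact continuous_const.matrix_mul continuous_id
    conv_lhs => rw [← hinv]
    rw [integral_map (f := F) hmeas.aemeasurable hFc.aestronglyMeasurable]

/-! ### The limit -/

/-- The arrays with good moments and edge at precision `j`. -/
def GoodArr (j : ℕ) (A : Dis n) : Prop :=
  mnorm (goe A) ≤ 2 + 1 / ((j : ℝ) + 1) ∧
    ∀ q ∈ Finset.range (j + 1), |tmom q A - catC q| ≤ 1 / ((j : ℝ) + 1)

open Classical in
/-- The indicator of the other arrays. -/
noncomputable def badInd (j : ℕ) (A : Dis n) : ℝ := if GoodArr j A then 0 else 1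

lemma badInd_mem (j : ℕ) (A : Dis n) : 0 ≤ badInd j A ∧ badInd j A ≤ 1 := by
  unfold badInd; split_ifs <;> norm_num

lemma measurable_badInd (j : ℕ) : Measurable (badInd (n := n) j) := by
  classical
  unfold badInd
  refine Measurable.ite ?_ measurable_const measurable_const
  have e : {A : Dis n | GoodArr j A} = {A : Dis n | mnorm (goe A) ≤ 2 + 1 / ((j : ℝ) + 1)} ∩
      ⋂ q ∈ Finset.range (j + 1), {A : Dis n | |tmom q A - catC q| ≤ 1 / ((j : ℝ) + 1)} := by
    ext A; simp [GoodArr]
  rw [e]
  exact (measurableSet_le (continuous_mnorm.comp continuous_goe).measurable measurable_const).inter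
    (MeasurableSet.biInter (Set.to_countable _) fun q _ =>
      measurableSet_le ((continuous_tmom q).sub continuous_const).abs.measurable measurable_const)

lemma integrable_badInd (j : ℕ) : Integrable (badInd (n := n) j) (gauss (Fin n × Fin n)) :=
  Integrable.of_bound (measurable_badInd j).aestronglyMeasurable 1 (Eventually.of_forall fun A => by
    rw [Real.norm_eq_abs, abs_of_nonneg (badInd_mem j A).1]; exact (badInd_mem j A).2)

lemma tendsto_badInd (j : ℕ) :
    Tendsto (fun n => ∫ A : Dis n, badInd j A ∂gauss (Fin n × Fin n)) atTop (𝓝 0) := by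
  set δ : ℝ := 1 / ((j : ℝ) + 1)
  have hδ : 0 < δ := by positivity
  have hi : ∀ (a b n : ℕ), Integrable (fun A : Dis n => tmom a A * tmom b A) (gauss (Fin n × Fin n)) :=
    fun a b n => by
      refine (integrable_gbnd_pow (a + b)).mono' ((continuous_tmom a).mul (continuous_tmom b)).aestronglyMeasurable
        (Eventually.of_forall fun A => ?_)
      rw [Real.norm_eq_abs, abs_mul, pow_add]
      exact mul_le_mul (abs_tmom_le a A) (abs_tmom_le b A) (abs_nonneg _)
        (pow_nonneg (zero_le_one.trans (one_le_gbnd A)) _)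
  have hexp : ∀ q n, ∀ A : Dis n, (tmom q A - catC q * tmom 0 A) ^ 2 =
      tmom q A * tmom q A - 2 * catC q * (tmom q A * tmom 0 A) + catC q ^ 2 * (tmom 0 A * tmom 0 A) :=
    fun q n A => by ring
  have hi2 : ∀ q n, Integrable (fun A : Dis n => (tmom q A - catC q * tmom 0 A) ^ 2) (gauss (Fin n × Fin n)) :=
    fun q n => by
      simp only [hexp]
      exact ((hi q q n).sub ((hi q 0 n).const_mul _)).add ((hi 0 0 n).const_mul _)
  have hvar : ∀ q, Tendsto (fun n => ∫ A : Dis n, (tmom q A - catC q * tmom 0 A) ^ 2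
      ∂gauss (Fin n × Fin n)) atTop (𝓝 0) := fun q => by
    have h := ((tendsto_tmom_mul q q).sub ((tendsto_tmom_mul q 0).const_mul (2 * catC q))).add
      ((tendsto_tmom_mul 0 0).const_mul (catC q ^ 2))
    have e : catC q * catC q - 2 * catC q * (catC q * catC 0) + catC q ^ 2 * (catC 0 * catC 0) = 0 := by
      rw [catC]; ring
    rw [e] at h
    refine h.congr fun n => ?_
    simp only [hexp]
    rw [integral_add, integral_sub, integral_const_mul, integral_const_mul]
    exacts [hi q q n, (hi q 0 n).const_mul _, (hi q q n).sub ((hi q 0 n).const_mul _), (hi 0 0 n).const_mul _]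
  have hlim : Tendsto (fun n => (∫ A : Dis n, (if 2 + δ < mnorm (goe A) then (1 : ℝ) else 0)
      ∂gauss (Fin n × Fin n)) + ∑ q ∈ Finset.range (j + 1),
        (∫ A : Dis n, (tmom q A - catC q * tmom 0 A) ^ 2 ∂gauss (Fin n × Fin n)) / δ ^ 2) atTop (𝓝 0) := by
    simpa using (tendsto_edge hδ).add (tendsto_finsetSum _ fun q _ => (hvar q).div_const (δ ^ 2))
  refine squeeze_zero' (Eventually.of_forall fun n => integral_nonneg fun A => (badInd_mem j A).1) ?_ hlim
  filter_upwards [eventually_gt_atTop 0] with n hn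
  have hie : Integrable (fun A : Dis n => if 2 + δ < mnorm (goe A) then (1 : ℝ) else 0) (gauss (Fin n × Fin n)) :=
    Integrable.of_bound (Measurable.ite (measurableSet_lt measurable_const
      (continuous_mnorm.comp continuous_goe).measurable) measurable_const measurable_const).aestronglyMeasurable 1
      (Eventually.of_forall fun A => by split_ifs <;> simp)
  have his : Integrable (fun A : Dis n => ∑ q ∈ Finset.range (j + 1),
      (tmom q A - catC q * tmom 0 A) ^ 2 / δ ^ 2) (gauss (Fin n × Fin n)) :=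
    integrable_finsetSum _ fun q _ => (hi2 q n).div_const _
  refine (integral_mono (integrable_badInd j) (hie.add his) fun A => ?_).trans (le_of_eq ?_)
  · show badInd j A ≤ (if 2 + δ < mnorm (goe A) then (1 : ℝ) else 0) +
      ∑ q ∈ Finset.range (j + 1), (tmom q A - catC q * tmom 0 A) ^ 2 / δ ^ 2
    have h0 : 0 ≤ ∑ q ∈ Finset.range (j + 1), (tmom q A - catC q * tmom 0 A) ^ 2 / δ ^ 2 :=
      Finset.sum_nonneg fun q _ => by positivity
    by_cases hg : GoodArr j A
    · simp only [badInd, hg, if_true]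
      split_ifs <;> linarith
    by_cases hm : 2 + δ < mnorm (goe A)
    · simp only [badInd, hg, hm, if_false, if_true]
      linarith
    · simp only [badInd, hg, hm, if_false, zero_add]
      obtain ⟨q, hq, hbig⟩ : ∃ q ∈ Finset.range (j + 1), δ < |tmom q A - catC q| := by
        by_contra hc
        push Not at hc
        exact hg ⟨not_lt.1 hm, hc⟩
      have h0m : tmom 0 A = 1 := by simp [tmom, hn.ne']
      refine le_trans ?_ (Finset.single_le_sum (fun i _ => by positivity) hq)
      rw [h0m, mul_one, one_le_div (by positivity), ← sq_abs (tmom q A - catC q)]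
      exact pow_le_pow_left₀ hδ.le hbig.le 2
  · rw [integral_add' hie his, integral_finsetSum _ fun q _ => (hi2 q n).div_const _]
    simp only [integral_div]

/-- The pressure at a polynomial of the GOE matrix tends in mean to the variational value. -/
theorem pressure_L1 (P : Polynomial ℝ) {β : ℝ} (hβ : 0 < β) :
    Tendsto (fun n => ∫ A : Dis n, |jPress β (Polynomial.aeval (goe A) P) -
      sInf (formulaValues (sc.map fun x => P.eval x) β)| ∂gauss (Fin n × Fin n)) atTop (𝓝 0) := by
  obtain ⟨ν, hν⟩ := Vale.Agent.P166F.exists_invariant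
  obtain ⟨hprob, hcpt, -⟩ := sc_image P
  set μ := sc.map fun x => P.eval x
  set L := sInf (formulaValues μ β)
  -- a scale of precision
  have hex : ∀ j : ℕ, ∃ N, ∀ n ≥ N, ∫ A : Dis n, badInd j A ∂gauss (Fin n × Fin n) < 1 / ((j : ℝ) + 1) :=
    fun j => eventually_atTop.1 ((tendsto_badInd j).eventually_lt_const (by positivity))
  choose Nj hNj using hex
  set jn : ℕ → ℕ := fun n => Nat.findGreatest (fun j => Nj j ≤ n) n with hjn
  have hjn_top : Tendsto jn atTop atTop := tendsto_atTop.2 fun j => by
    filter_upwards [eventually_ge_atTop (max j (Nj j))] with n hn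
    exact Nat.le_findGreatest (le_of_max_le_left hn) (le_of_max_le_right hn)
  have hsmall : ∀ᶠ n in atTop, ∫ A : Dis n, badInd (jn n) A ∂gauss (Fin n × Fin n) < 1 / ((jn n : ℝ) + 1) := by
    filter_upwards [eventually_ge_atTop (Nj 0)] with n hn
    exact hNj _ n (Nat.findGreatest_spec (P := fun j => Nj j ≤ n) (Nat.zero_le n) hn)
  have hδ : Tendsto (fun n => 1 / ((jn n : ℝ) + 1)) atTop (𝓝 0) :=
    tendsto_one_div_add_atTop_nhds_zero_nat.comp hjn_top
  have hb0 : Tendsto (fun n => ∫ A : Dis n, badInd (jn n) A ∂gauss (Fin n × Fin n)) atTop (𝓝 0) :=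
    squeeze_zero' (Eventually.of_forall fun n => integral_nonneg fun A => (badInd_mem _ A).1)
      (hsmall.mono fun n hn => hn.le) hδ
  have hgood : ∀ᶠ n in atTop, ∃ A : Dis n, GoodArr (jn n) A := by
    filter_upwards [hb0.eventually_lt_const one_pos] with n hn
    by_contra hc
    push Not at hc
    simp [badInd, hc] at hn
  -- uniformly on good arrays
  have hkey : ∀ e > 0, ∀ᶠ n in atTop, ∀ A : Dis n, GoodArr (jn n) A → haarDev β P L (ν n) A ≤ e := by
    intro e he
    classical
    set pick : ∀ n, Dis n := fun n =>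
      if h : ∃ A : Dis n, GoodArr (jn n) A ∧ e < haarDev β P L (ν n) A then h.choose
      else if h' : ∃ A : Dis n, GoodArr (jn n) A then h'.choose else 0
    have hpick : ∀ᶠ n in atTop, GoodArr (jn n) (pick n) := hgood.mono fun n hn => by
      simp only [pick]
      split_ifs with h
      · exact h.choose_spec.1
      · exact hn.choose_spec
    choose l hl1 hl2 hl3 using fun n => exists_goe_spectrum β P L (hν n) (pick n)
    have hedge : ∀ ε > 0, ∀ᶠ n in atTop, ∀ i, |l n i| ≤ 2 + ε := fun ε hε => by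
      filter_upwards [hpick, hδ.eventually_lt_const hε] with n hn hn' i
      exact ((hl1 n i).trans hn.1).trans (by linarith)
    have hmom : ∀ q : ℕ, Tendsto (fun n => avg (l n) fun y => y ^ q) atTop (𝓝 (∫ x, x ^ q ∂sc)) := fun q => by
      rw [← catC_eq_integral, tendsto_iff_norm_sub_tendsto_zero]
      refine squeeze_zero' (Eventually.of_forall fun n => norm_nonneg _) ?_ hδ
      filter_upwards [hpick, hjn_top.eventually_ge_atTop q] with n hn hq
      rw [Real.norm_eq_abs, hl2]
      exact hn.2 q (Finset.mem_range.2 (by omega))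
    have hΛ := admissible_poly P hedge hmom
    obtain ⟨L', hL', hlim, -⟩ := Vale.Agent.P166F.pressure_formula μ hcpt β hβ _ hΛ ν hν
    have hLL : L' = L := (hL'.csInf_eq (Vale.Agent.P166F.formula_bddBelow hcpt hβ.le).2).symm
    have hdev : Tendsto (fun n => ∫ U, |pressure n β (fun i => P.eval (l n i)) U - L| ∂ν n) atTop (𝓝 0) := by
      have hup := (Vale.Agent.P166F.orth_conc (β := β) hΛ hν).add
        (tendsto_iff_norm_sub_tendsto_zero.1 (hLL ▸ hlim))
      rw [zero_add] at hup
      refine squeeze_zero (fun n => integral_nonneg fun U => abs_nonneg _) (fun n => ?_) hup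
      have := (hν n).prob
      have hi := Vale.Agent.P166.integrable_pressure (hν n).rowInvariant hβ.le (fun i => P.eval (l n i))
      set m := ∫ U, pressure n β (fun i => P.eval (l n i)) U ∂ν n
      refine (integral_mono (hi.sub (integrable_const L)).abs
        ((hi.sub (integrable_const m)).abs.add (integrable_const |m - L|)) fun U => abs_sub_le _ m _).trans ?_
      rw [integral_add' (hi.sub (integrable_const _)).abs (integrable_const _)]
      simp [Real.norm_eq_abs]
    filter_upwards [hdev.eventually_lt_const he] with n hn A hA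
    rw [hl3] at hn
    by_contra hc
    push Not at hc
    have h : ∃ A : Dis n, GoodArr (jn n) A ∧ e < haarDev β P L (ν n) A := ⟨A, hA, hc⟩
    simp only [pick, dif_pos h] at hn
    linarith [h.choose_spec.2]
  -- the bad arrays
  set d := P.natDegree
  set K := |β| / 2 * (∑ i ∈ Finset.range (d + 1), |P.coeff i|) + |L|
  have hK : 0 ≤ K := by positivity
  have hH := fun n => integral_haarDev β P L (hν n)
  obtain ⟨C, hC⟩ := gbnd_bound (2 * d)
  have hsq : ∀ (j : ℕ) (n : ℕ) (A : Dis n), badInd j A ^ 2 = badInd j A := fun j n A => by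
    unfold badInd; split_ifs <;> norm_num
  have hbad : Tendsto (fun n => ∫ A : Dis n, badInd (jn n) A * (K * gbnd A ^ d) ∂gauss (Fin n × Fin n))
      atTop (𝓝 0) := by
    refine tendsto_amgm (X := fun n A => badInd (jn n) A) (Y := fun n A => K * gbnd A ^ d) (C := K ^ 2 * C)
      (fun n A => ?_) (fun n => by simpa only [hsq] using integrable_badInd (jn n)) (fun n => ?_)
      (by simpa only [hsq] using hb0) ?_
    · rw [abs_of_nonneg (mul_nonneg (badInd_mem _ A).1
        (mul_nonneg hK (pow_nonneg (zero_le_one.trans (one_le_gbnd A)) _)))]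
    · simp only [mul_pow, ← pow_mul]
      exact (integrable_gbnd_pow _).const_mul _
    · filter_upwards [hC] with n hn
      simp only [mul_pow, ← pow_mul, integral_const_mul]
      rw [mul_comm d 2]
      exact mul_le_mul_of_nonneg_left hn (sq_nonneg _)
  refine Metric.tendsto_nhds.2 fun e he => ?_
  filter_upwards [hkey (e / 4) (by linarith), hbad.eventually_lt_const (show (0 : ℝ) < e / 4 by linarith)]
    with n h1 h2
  obtain ⟨hi, hb, he'⟩ := hH n
  have hib : Integrable (fun A : Dis n => badInd (jn n) A * (K * gbnd A ^ d)) (gauss (Fin n × Fin n)) :=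
    ((integrable_gbnd_pow d).const_mul K).bdd_mul (measurable_badInd _).aestronglyMeasurable (c := 1)
      (Eventually.of_forall fun A => by
        rw [Real.norm_eq_abs, abs_of_nonneg (badInd_mem _ A).1]; exact (badInd_mem _ A).2)
  have hpt : ∀ A : Dis n, ‖haarDev β P L (ν n) A‖ ≤ e / 4 + badInd (jn n) A * (K * gbnd A ^ d) := fun A => by
    rw [Real.norm_eq_abs, abs_of_nonneg (show 0 ≤ haarDev β P L (ν n) A from integral_nonneg fun U => abs_nonneg _)]
    by_cases hA : GoodArr (jn n) A
    · simpa [badInd, hA] using h1 A hA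
    · have hg : 1 ≤ gbnd A ^ d := one_le_pow₀ (one_le_gbnd A)
      have h4 := mul_le_mul_of_nonneg_left hg (abs_nonneg L)
      have h3 := hb A
      simp only [badInd, hA, if_false, one_mul, K]
      linarith
  rw [Real.dist_eq, ← he', sub_zero, ← Real.norm_eq_abs]
  refine (norm_integral_le_of_norm_le ((integrable_const _).add hib) (Eventually.of_forall hpt)).trans_lt ?_
  rw [integral_add' (integrable_const _) hib, integral_const, probReal_univ, one_smul]
  linarith

end Vale.Agent.P146F
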